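import Vale.Agent.P242W72.Lim
import Mathlib.MeasureTheory.Constructions.Polish.Basic
import Mathlib.Topology.ContinuousMap.SecondCountableSpace
import Mathlib.Topology.ContinuousMap.Compact

/-!
# Lisini's superposition theorem for Lipschitz curves in the Wasserstein space
-/

set_option linter.all false

open MeasureTheory ProbabilityTheory Set Filter Topology
open scoped ENNReal NNReal unitInterval

namespace Vale.Agent.P242W72

variable {X : Type*} [MetricSpace X] [CompleteSpace X] [SecondCountableTopology X]
  [MeasurableSpace X] [BorelSpace X]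

/-- small transport cost gives weak convergence -/
theorem weak_of_cost {μ : ℕ → ProbabilityMeasure X} {ν : ProbabilityMeasure X} {c : ℕ → ℝ}
    (hc : Tendsto c atTop (𝓝 0)) (hc0 : ∀ n, 0 ≤ c n)
    (h : ∀ n, ∃ q : Measure (X × X), q.map Prod.fst = μ n ∧ q.map Prod.snd = ν ∧
      ∫⁻ z, ENNReal.ofReal (dist z.1 z.2 ^ 2) ∂q ≤ ENNReal.ofReal (c n)) :
    Tendsto μ atTop (𝓝 ν) := by
  rw [tendsto_iff_forall_lipschitz_integral_tendsto]
  rintro f ⟨C, hC⟩ ⟨L, hL⟩
  have : Nonempty X := (ν : Measure X).nonempty_of_neZero
  obtain ⟨x0⟩ := this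
  have fi : ∀ (ρ : Measure X) [IsFiniteMeasure ρ], Integrable f ρ := fun ρ _ =>
    Integrable.of_bound hL.continuous.aestronglyMeasurable (‖f x0‖ + C)
      (Eventually.of_forall fun x => by
        have := hC x x0
        rw [dist_eq_norm] at this
        linarith [norm_le_norm_add_norm_sub' (f x) (f x0)])
  have key : ∀ n (η : ℝ), 0 < η →
      |∫ x, f x ∂(μ n) - ∫ x, f x ∂ν| ≤ L * (η + c n / η) := by
    intro n η hη
    obtain ⟨q, q1, q2, q3⟩ := h n
    have : IsProbabilityMeasure q := ⟨by
      have := congrArg (fun ρ : Measure X => ρ univ) q1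
      simpa only [Measure.map_apply measurable_fst MeasurableSet.univ, preimage_univ, measure_univ]
        using this⟩
    have hd : Continuous fun z : X × X => dist z.1 z.2 ^ 2 := by fun_prop
    have i0 : Integrable (fun z : X × X => dist z.1 z.2 ^ 2) q :=
      ⟨hd.aestronglyMeasurable, (hasFiniteIntegral_iff_ofReal (Eventually.of_forall fun z => by
        positivity)).2 (q3.trans_lt ENNReal.ofReal_lt_top)⟩
    have i1 : ∫ z : X × X, dist z.1 z.2 ^ 2 ∂q ≤ c n := by
      rw [← ENNReal.ofReal_le_ofReal_iff (hc0 n), ofReal_integral_eq_lintegral_ofReal i0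
        (Eventually.of_forall fun z => by positivity)]
      exact q3
    have j1 : Integrable (fun z : X × X => f z.1) q :=
      (integrable_map_measure hL.continuous.aestronglyMeasurable measurable_fst.aemeasurable).1
        (fi _)
    have j2 : Integrable (fun z : X × X => f z.2) q :=
      (integrable_map_measure hL.continuous.aestronglyMeasurable measurable_snd.aemeasurable).1
        (fi _)
    rw [← q1, ← q2, integral_map measurable_fst.aemeasurable hL.continuous.aestronglyMeasurable,
      integral_map measurable_snd.aemeasurable hL.continuous.aestronglyMeasurable,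
      ← integral_sub j1 j2]
    calc _ ≤ ∫ z : X × X, L * (η + dist z.1 z.2 ^ 2 / η) ∂q := by
          rw [← Real.norm_eq_abs]
          refine norm_integral_le_of_norm_le
            (((integrable_const η).add (i0.div_const η)).const_mul _)
            (Eventually.of_forall fun z => ?_)
          rw [← dist_eq_norm]
          refine (hL.dist_le_mul _ _).trans (mul_le_mul_of_nonneg_left ?_ L.2)
          have : dist z.1 z.2 * η ≤ η * η + dist z.1 z.2 ^ 2 := by
            nlinarith [sq_nonneg (dist z.1 z.2 - η), mul_nonneg (dist_nonneg (x := z.1) (y := z.2))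
              hη.le]
          rw [← sub_le_iff_le_add', le_div_iff₀ hη]
          linarith
      _ = L * (η + (∫ z : X × X, dist z.1 z.2 ^ 2 ∂q) / η) := by
          rw [integral_const_mul, integral_add (integrable_const η) (i0.div_const η),
            integral_div]
          simp
      _ ≤ _ := by gcongr
  rw [Metric.tendsto_atTop]
  intro ε hε
  set η := ε / (3 * (L + 1)) with hη
  have hη0 : 0 < η := by positivity
  obtain ⟨N, hN⟩ := (Metric.tendsto_atTop.1 hc) (η * η) (by positivity)
  refine ⟨N, fun n hn => ?_⟩
  have h1 := hN n hn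
  rw [Real.dist_eq, sub_zero, abs_of_nonneg (hc0 n)] at h1
  have h2 : c n / η ≤ η := (div_le_iff₀ hη0).2 h1.le
  have h3 : η * (3 * (L + 1)) = ε := by rw [hη]; field_simp
  rw [Real.dist_eq]
  have h4 : (0 : ℝ) ≤ L := L.2
  calc _ ≤ _ := key n η hη0
    _ ≤ L * (η + η) := by gcongr
    _ < ε := by nlinarith

/-- the dyadic energy of a curve -/
noncomputable def Ed (γ : I → X) : ℝ≥0∞ := ⨆ n, ENNReal.ofReal (En n fun j => γ (dy n j))

/-- **Lisini**: a Lipschitz curve in the Wasserstein space is a superposition of curves. -/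
theorem lisini [MeasurableSpace C(I, X)] [BorelSpace C(I, X)] (ν : I → Measure X)
    [∀ t, IsProbabilityMeasure (ν t)] {A : ℝ} (hA : 0 ≤ A)
    (h : ∀ (s t : I) (δ : ℝ), 0 < δ → ∃ q : Measure (X × X), q.map Prod.fst = ν s ∧
      q.map Prod.snd = ν t ∧ ∫⁻ z, ENNReal.ofReal (dist z.1 z.2 ^ 2) ∂q ≤
        ENNReal.ofReal (A * ((s : ℝ) - t) ^ 2 + δ)) :
    ∃ π : Measure C(I, X), IsProbabilityMeasure π ∧ (∀ t, π.map (fun γ => γ t) = ν t) ∧
      ∫⁻ γ, Ed γ ∂π ≤ ENNReal.ofReal A := by
  have := DD_count
  obtain ⟨P, hP, a1, a2⟩ := limit ν hA h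
  let r : C(I, X) → DD → X := fun γ t => γ t
  have rc : Continuous r := continuous_pi fun t => continuous_eval_const _
  have ri : Function.Injective r := fun γ γ' e => ContinuousMap.ext fun t =>
    congrFun (DD_dense.equalizer γ.continuous γ'.continuous e) t
  have re : MeasurableEmbedding r := rc.measurableEmbedding ri
  have hm : Measurable fun z : DD → X => ⨆ n, ENNReal.ofReal (En n fun j => z (dd n j)) :=
    Measurable.iSup fun n => (Ed_cont n).measurable.ennreal_ofReal
  have full : ∀ᵐ z ∂P, z ∈ range r := by
    filter_upwards [ae_lt_top hm (a2.trans_lt ENNReal.ofReal_lt_top).ne] with z hz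
    obtain ⟨γ, hγ⟩ := extend (z := z) (C := (⨆ n, ENNReal.ofReal (En n fun j => z (dd n j))).toReal)
      fun n => (ENNReal.ofReal_le_iff_le_toReal hz.ne).1 (le_iSup
        (fun n => ENNReal.ofReal (En n fun j => z (dd n j))) n)
    exact ⟨γ, funext hγ⟩
  have mp : (P.comap r).map r = P := by
    rw [re.map_comap, Measure.restrict_eq_self_of_ae_mem full]
  have pr : IsProbabilityMeasure (P.comap r) := ⟨by
    have := congrArg (fun ρ : Measure (DD → X) => ρ univ) mp
    simpa only [Measure.map_apply re.measurable MeasurableSet.univ, preimage_univ, measure_univ]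
      using this⟩
  have ev : ∀ t : I, Measurable fun γ : C(I, X) => γ t := fun t =>
    (continuous_eval_const t).measurable
  have m1 : ∀ t : DD, (P.comap r).map (fun γ => γ t) = ν t := fun t => by
    rw [← a1 t]
    conv_rhs => rw [← mp]
    rw [Measure.map_map (measurable_pi_apply _) re.measurable]
    rfl
  refine ⟨P.comap r, pr, fun t => ?_, ?_⟩
  · let s : ℕ → I := fun n => dy n ⌊(t : ℝ) * 2 ^ n⌋₊
    have hs : Tendsto s atTop (𝓝 t) := dy_tendsto t
    let μ : ℕ → ProbabilityMeasure X := fun n => ⟨ν (s n), inferInstance⟩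
    let ν1 : ProbabilityMeasure X := ⟨ν t, inferInstance⟩
    let ν2 : ProbabilityMeasure X := ⟨(P.comap r).map fun γ => γ t,
      Measure.isProbabilityMeasure_map (ev t).aemeasurable⟩
    have t1 : Tendsto μ atTop (𝓝 ν1) := by
      refine weak_of_cost (c := fun n => A * ((s n : ℝ) - t) ^ 2 + 1 / ((n : ℝ) + 1)) ?_
        (fun n => by positivity) fun n => h (s n) t _ (by positivity)
      have := ((((tendsto_subtype_rng.1 hs).sub_const (t : ℝ)).pow 2).const_mul A).add
        (tendsto_one_div_add_atTop_nhds_zero_nat (𝕜 := ℝ))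
      simpa using this
    have t2 : Tendsto μ atTop (𝓝 ν2) := by
      rw [ProbabilityMeasure.tendsto_iff_forall_integral_tendsto]
      intro f
      have e1 : ∀ n, ∫ x, f x ∂(μ n) = ∫ γ, f (γ (s n)) ∂(P.comap r) := fun n => by
        rw [← integral_map (ev _).aemeasurable f.continuous.aestronglyMeasurable]
        exact congrArg (fun ρ : Measure X => ∫ x, f x ∂ρ) (m1 ⟨s n, (n, _), rfl⟩).symm
      have e2 : ∫ x, f x ∂ν2 = ∫ γ, f (γ t) ∂(P.comap r) :=
        integral_map (ev _).aemeasurable f.continuous.aestronglyMeasurable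
      simp only [e1, e2]
      exact tendsto_integral_of_dominated_convergence (fun _ => ‖f‖)
        (fun n => (f.continuous.measurable.comp (ev _)).aestronglyMeasurable) (integrable_const _)
        (fun n => Eventually.of_forall fun γ => f.norm_coe_le_norm _)
        (Eventually.of_forall fun γ => ((f.continuous.comp γ.continuous).tendsto t).comp hs)
    have h3 := tendsto_nhds_unique t2 t1
    exact congrArg (fun ρ : ProbabilityMeasure X => (ρ : Measure X)) h3
  · rw [← mp, lintegral_map hm re.measurable] at a2
    exact a2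

end Vale.Agent.P242W72
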