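import Vale.Agent.P242W.Defs
import Mathlib.MeasureTheory.Integral.MeanInequalities
import Mathlib.MeasureTheory.Measure.Prod
import Mathlib.Topology.Semicontinuity.Basic

/-!
# Measurability of the speed, the basic estimate for test plans
-/

set_option linter.all false

open MeasureTheory Set Filter Topology unitInterval
open scoped ENNReal NNReal

universe u

namespace Vale.Agent.P242W72

open Vale.Agent.P242W

variable {X : Type u} [MetricSpace X] [MeasurableSpace C(I, X)] [BorelSpace C(I, X)]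

theorem measurable_speed : Measurable fun p : C(I, X) × I => speed p.1 p.2 := by
  have e : (fun p : C(I, X) × I => speed p.1 p.2) = fun p => ⨅ k : ℕ, ⨆ s : I,
      ⨆ (_ : s ∈ Metric.ball p.2 (1 / ((k : ℝ) + 1)) ∩ {p.2}ᶜ),
        edist (p.1 s) (p.1 p.2) / edist s p.2 := funext fun p => by
    rw [speed, (nhdsWithin_hasBasis Metric.nhds_basis_ball_inv_nat_succ {p.2}ᶜ).limsup_eq_iInf_iSup]
    simp
  rw [e]
  refine Measurable.iInf fun k => LowerSemicontinuous.measurable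
    (lowerSemicontinuous_iSup fun s => fun p y hy => ?_)
  obtain ⟨⟨h1, h2⟩, h3⟩ := lt_iSup_iff.1 hy
  have h4 : s ≠ p.2 := h2
  have c1 : ∀ᶠ q : C(I, X) × I in 𝓝 p, dist s q.2 < 1 / ((k : ℝ) + 1) :=
    (isOpen_lt (by fun_prop) continuous_const).mem_nhds h1
  have c2 : ∀ᶠ q : C(I, X) × I in 𝓝 p, s ≠ q.2 :=
    (isOpen_ne_fun continuous_const continuous_snd).mem_nhds h4
  have c3 : Tendsto (fun q : C(I, X) × I => edist (q.1 s) (q.1 q.2) / edist s q.2) (𝓝 p)
      (𝓝 (edist (p.1 s) (p.1 p.2) / edist s p.2)) :=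
    ENNReal.Tendsto.div (Continuous.tendsto (f := fun q : C(I, X) × I => edist (q.1 s) (q.1 q.2))
      (by fun_prop) p) (Or.inr (edist_pos.2 h4).ne')
      (Continuous.tendsto (f := fun q : C(I, X) × I => edist s q.2) (by fun_prop) p)
      (Or.inr (edist_ne_top _ _))
  filter_upwards [c1, c2, c3.eventually (lt_mem_nhds h3)] with q a1 a2 a3
  exact lt_iSup_iff.2 ⟨⟨a1, a2⟩, a3⟩

theorem measurable_speed_t (γ : C(I, X)) : Measurable (speed γ) :=
  Measurable.of_uncurry_left (f := fun (γ : C(I, X)) t => speed γ t) measurable_speed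

theorem measurable_kin : Measurable fun γ : C(I, X) => ∫⁻ t, speed γ t ^ 2 :=
  (measurable_speed.pow_const 2).lintegral_prod_right'

variable [MeasurableSpace X] [BorelSpace X]

theorem measurable_ev : Measurable fun p : C(I, X) × I => p.1 p.2 :=
  continuous_eval.measurable

theorem measurable_evt (t : I) : Measurable fun γ : C(I, X) => γ t :=
  (continuous_eval_const t).measurable

theorem measurable_lineInt {ρ : X → ℝ≥0∞} (h : Measurable ρ) :
    Measurable (lineInt ρ : C(I, X) → ℝ≥0∞) :=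
  ((h.comp measurable_ev).mul measurable_speed).lintegral_prod_right'

variable {m : Measure X} {π : Measure C(I, X)} [IsProbabilityMeasure π] {C : ℝ≥0}

theorem map_ev_le (h : ∀ t : I, π.map (fun γ => γ t) ≤ C • m) :
    (π.prod (volume : Measure I)).map (fun p => p.1 p.2) ≤ C • m := by
  refine Measure.le_iff.2 fun s hs => ?_
  rw [Measure.map_apply measurable_ev hs, Measure.prod_apply_symm (measurable_ev hs)]
  calc _ ≤ ∫⁻ _ : I, (C • m) s := lintegral_mono fun t => by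
        have := h t s
        rwa [Measure.map_apply (measurable_evt t) hs] at this
    _ = _ := by simp

theorem qmp_ev (h : ∀ t : I, π.map (fun γ => γ t) ≤ C • m) :
    Measure.QuasiMeasurePreserving (fun p : C(I, X) × I => p.1 p.2) (π.prod volume) m :=
  ⟨measurable_ev, (map_ev_le h).absolutelyContinuous.trans Measure.smul_absolutelyContinuous⟩

theorem qmp_evt (h : ∀ t : I, π.map (fun γ => γ t) ≤ C • m) (t : I) :
    Measure.QuasiMeasurePreserving (fun γ : C(I, X) => γ t) π m :=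
  ⟨measurable_evt t, (h t).absolutelyContinuous.trans Measure.smul_absolutelyContinuous⟩

/-- almost everywhere statements hold along almost every curve -/
theorem ae_curve (h : ∀ t : I, π.map (fun γ => γ t) ≤ C • m) {p : X → Prop}
    (hp : ∀ᵐ x ∂m, p x) : ∀ᵐ γ ∂π, ∀ᵐ t, p (γ t) :=
  Measure.ae_ae_of_ae_prod ((qmp_ev h).ae hp)

theorem ae_end (h : ∀ t : I, π.map (fun γ => γ t) ≤ C • m) {p : X → Prop}
    (hp : ∀ᵐ x ∂m, p x) (t : I) : ∀ᵐ γ ∂π, p (γ t) := (qmp_evt h t).ae hp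

theorem aemeasurable_lineInt (h : ∀ t : I, π.map (fun γ => γ t) ≤ C • m) {ρ : X → ℝ≥0∞}
    (hρ : AEMeasurable ρ m) : AEMeasurable (lineInt ρ) π :=
  ((hρ.comp_quasiMeasurePreserving (qmp_ev h)).mul
    measurable_speed.aemeasurable).lintegral_prod_right'

/-- the basic estimate -/
theorem lineInt_le (h : ∀ t : I, π.map (fun γ => γ t) ≤ C • m) {ρ : X → ℝ≥0∞}
    (hρ : AEMeasurable ρ m) : ∫⁻ γ, lineInt ρ γ ∂π ≤ (C * ∫⁻ x, ρ x ^ 2 ∂m) ^ (1 / 2 : ℝ) *
      (∫⁻ γ, ∫⁻ t, speed γ t ^ 2 ∂volume ∂π) ^ (1 / 2 : ℝ) := by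
  have h1 := hρ.comp_quasiMeasurePreserving (qmp_ev h)
  have h2 := ENNReal.lintegral_mul_le_Lp_mul_Lq (π.prod volume) Real.HolderConjugate.two_two h1
    measurable_speed.aemeasurable
  rw [lintegral_prod _ (h1.mul measurable_speed.aemeasurable),
    lintegral_prod _ (measurable_speed.aemeasurable.pow_const _)] at h2
  simp only [ENNReal.rpow_two] at h2
  refine h2.trans (mul_le_mul_left (ENNReal.rpow_le_rpow ?_ (by norm_num)) _)
  have h3 : AEMeasurable (fun x => ρ x ^ 2)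
      ((π.prod (volume : Measure I)).map fun p => p.1 p.2) :=
    (hρ.pow_const 2).mono_ac (qmp_ev h).absolutelyContinuous
  calc _ = ∫⁻ x, ρ x ^ 2 ∂((π.prod (volume : Measure I)).map fun p => p.1 p.2) :=
        (lintegral_map' h3 measurable_ev.aemeasurable).symm
    _ ≤ ∫⁻ x, ρ x ^ 2 ∂(C • m) := lintegral_mono' (map_ev_le h) le_rfl
    _ = _ := by rw [lintegral_smul_measure]; rfl

omit [IsProbabilityMeasure π] in
/-- families of modulus zero are negligible for test plans -/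
theorem null_of_modulus (hπ : IsTestPlan m π) {Γ : Set C(I, X)} (h : modulus m Γ = 0) :
    π Γ = 0 := by
  have := hπ.prob
  obtain ⟨C, hC⟩ := hπ.comp
  set K := ∫⁻ γ, ∫⁻ t, speed γ t ^ 2 ∂volume ∂π
  have hK : K ≠ ∞ := hπ.energy.ne
  have key : ∀ ε : ℝ≥0∞, 0 < ε → π Γ ≤ (C * ε) ^ (1 / 2 : ℝ) * K ^ (1 / 2 : ℝ) := fun ε hε => by
    have h1 : modulus m Γ < ε := h ▸ hε
    simp only [modulus, iInf_lt_iff] at h1
    obtain ⟨ρ, a1, a2, a3⟩ := h1
    calc π Γ ≤ π {γ | 1 ≤ lineInt ρ γ} := measure_mono a2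
      _ ≤ ∫⁻ γ, lineInt ρ γ ∂π := by
          simpa using mul_meas_ge_le_lintegral₀ (μ := π) (measurable_lineInt a1).aemeasurable 1
      _ ≤ _ := lineInt_le hC a1.aemeasurable
      _ ≤ _ := by gcongr
  have ht : Tendsto (fun ε : ℝ≥0∞ => ((C : ℝ≥0∞) * ε) ^ (1 / 2 : ℝ) * K ^ (1 / 2 : ℝ)) (𝓝[>] 0)
      (𝓝 0) := by
    have t1 : Tendsto (fun ε : ℝ≥0∞ => (C : ℝ≥0∞) * ε) (𝓝 0) (𝓝 0) := by
      simpa using ENNReal.Tendsto.const_mul (a := (C : ℝ≥0∞)) (tendsto_id (x := 𝓝 (0 : ℝ≥0∞)))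
        (Or.inr ENNReal.coe_ne_top)
    have t2 := (ENNReal.continuous_rpow_const (y := (1 / 2 : ℝ))).tendsto 0 |>.comp t1
    have t3 := ENNReal.Tendsto.mul_const (b := K ^ (1 / 2 : ℝ)) t2
      (Or.inr (ENNReal.rpow_ne_top_of_nonneg (by norm_num) hK))
    rw [ENNReal.zero_rpow_of_pos (by norm_num), zero_mul] at t3
    exact t3.mono_left nhdsWithin_le_nhds
  exact le_zero_iff.1 (ge_of_tendsto ht (eventually_nhdsWithin_of_forall key))

omit [IsProbabilityMeasure π] [BorelSpace C(I, X)] [MeasurableSpace C(I, X)] [BorelSpace X]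
  [MeasurableSpace X] in
theorem ac_one {γ : C(I, X)} (h : IsAC 2 γ) : IsAC 1 γ :=
  h.imp fun g hg => ⟨hg.1.mono_exponent one_le_two, hg.2⟩

omit [IsProbabilityMeasure π] in
/-- Newtonian weak upper gradients are weak upper gradients for test plans -/
theorem weak_of_newton {f G : X → ℝ} (h : IsNewtonUG m f G) : IsWeakUG m f G := by
  obtain ⟨a, f', e, h0⟩ := h
  refine ⟨a, fun π hπ => ?_⟩
  have := hπ.prob
  obtain ⟨C, hC⟩ := hπ.comp
  filter_upwards [measure_eq_zero_iff_ae_notMem.1 (null_of_modulus hπ h0), hπ.ac,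
    ae_end hC e 0, ae_end hC e 1] with γ h1 h2 h3 h4
  have h5 : UG f' G γ := by
    by_contra h5
    exact h1 ⟨ac_one h2, h5⟩
  rwa [UG, h3, h4] at h5

omit [IsProbabilityMeasure π] [BorelSpace C(I, X)] [BorelSpace X] in
theorem int_of_weak {f G : X → ℝ} (h : IsWeakUG m f G) : IsIntUG m f G :=
  ⟨h.1, fun π hπ => lintegral_mono_ae (h.2 π hπ)⟩

end Vale.Agent.P242W72
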