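import Vale.Agent.P242W.Rows
import Vale.Agent.P242W72.Meas

/-!
# The rows SPM, SPM1, CS, NEW2
-/

open MeasureTheory unitInterval

universe u

namespace Vale.Agent.P242W72

open Vale.Agent.P242W

variable (X : Type u) [MetricSpace X]

theorem spm1 : SPM1 X := fun γ => by
  borelize C(I, X)
  exact measurable_speed_t γ

variable [MeasurableSpace C(I, X)] [BorelSpace C(I, X)]

theorem spm [MeasurableSpace X] : SPM X := measurable_speed

variable [MeasurableSpace X] [BorelSpace X]

theorem cs : CS X := fun _ _ _ _ h =>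
  ⟨fun _ hρ => ⟨aemeasurable_lineInt h hρ, lineInt_le h hρ⟩,
    fun _ hP => ⟨ae_curve h hP, ae_end h hP⟩⟩

theorem new2 : NEW2 X := fun _ _ _ => weak_of_newton

end Vale.Agent.P242W72
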