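import Mathlib.MeasureTheory.Measure.Prokhorov
import Mathlib.MeasureTheory.Measure.Portmanteau
import Mathlib.MeasureTheory.Measure.LevyProkhorovMetric
import Mathlib.Probability.Kernel.Disintegration.StandardBorel
import Mathlib.Probability.Kernel.Composition.MeasureCompProd
import Mathlib.Topology.UnitInterval
import Mathlib.Algebra.Order.Chebyshev

/-!
# Gluing of couplings, dyadic energies
-/

set_option linter.all false

open MeasureTheory ProbabilityTheory Set Filter Topology
open scoped ENNReal unitInterval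

namespace Vale.Agent.P242W72

section chain

variable {X : Type*} [MeasurableSpace X] [StandardBorelSpace X]

theorem map_comap {Ω : Type*} [MeasurableSpace Ω] (P : Measure Ω) [IsProbabilityMeasure P]
    (κ : Kernel X X) [IsMarkovKernel κ] {g : Ω → X} (hg : Measurable g) :
    (P ⊗ₘ κ.comap g hg).map (fun p => (g p.1, p.2)) = P.map g ⊗ₘ κ := by
  have hm : Measurable fun p : Ω × X => (g p.1, p.2) := by fun_prop
  refine Measure.ext_of_lintegral _ fun f hf => ?_
  rw [lintegral_map hf hm, Measure.lintegral_compProd hf,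
    lintegral_map (hf.lintegral_kernel_prod_right' (κ := κ)) hg]
  exact Measure.lintegral_compProd (hf.comp hm)

/-- gluing of finitely many couplings -/
theorem chain (μ : ℕ → Measure X) [∀ i, IsProbabilityMeasure (μ i)] (q : ℕ → Measure (X × X))
    (h1 : ∀ i, (q i).map Prod.fst = μ i) (h2 : ∀ i, (q i).map Prod.snd = μ (i + 1)) (k : ℕ) :
    ∃ P : Measure (ℕ → X), IsProbabilityMeasure P ∧ (∀ i ≤ k, P.map (fun x => x i) = μ i) ∧
      ∀ i < k, P.map (fun x => (x i, x (i + 1))) = q i := by
  have : Nonempty X := (μ 0).nonempty_of_neZero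
  have hq : ∀ i, IsProbabilityMeasure (q i) := fun i => ⟨by
    have := congrArg (fun ν : Measure X => ν univ) (h1 i)
    simp only [Measure.map_apply measurable_fst MeasurableSet.univ, preimage_univ, measure_univ]
      at this
    exact this⟩
  induction k with
  | zero =>
    have hm : Measurable fun (a : X) (_ : ℕ) => a := measurable_pi_lambda _ fun _ => measurable_id
    refine ⟨(μ 0).map fun a _ => a, Measure.isProbabilityMeasure_map hm.aemeasurable, fun i hi => ?_,
      fun i hi => absurd hi (Nat.not_lt_zero _)⟩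
    obtain rfl : i = 0 := by omega
    rw [Measure.map_map (measurable_pi_apply _) hm]
    exact Measure.map_id
  | succ k ih =>
    obtain ⟨P, hP, a1, a2⟩ := ih
    have hk : Measurable fun x : ℕ → X => x k := measurable_pi_apply k
    let Q := P ⊗ₘ (q k).condKernel.comap (fun x => x k) hk
    have hu : Measurable fun p : (ℕ → X) × X => Function.update p.1 (k + 1) p.2 :=
      measurable_update'
    have key : ∀ {Y : Type _} [MeasurableSpace Y] (F : (ℕ → X) → Y), Measurable F →
        (∀ x y, F (Function.update x (k + 1) y) = F x) →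
        (Q.map fun p => Function.update p.1 (k + 1) p.2).map F = P.map F := by
      intro Y _ F hF h
      rw [Measure.map_map hF hu]
      have : (F ∘ fun p : (ℕ → X) × X => Function.update p.1 (k + 1) p.2) = F ∘ Prod.fst :=
        funext fun p => h _ _
      rw [this, ← Measure.map_map hF measurable_fst]
      congr 1
      exact Measure.fst_compProd _ _
    have last : (Q.map fun p => Function.update p.1 (k + 1) p.2).map
        (fun x => (x k, x (k + 1))) = q k := by
      rw [Measure.map_map (by fun_prop) hu]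
      have : ((fun x : ℕ → X => (x k, x (k + 1))) ∘
          fun p : (ℕ → X) × X => Function.update p.1 (k + 1) p.2) = fun p => (p.1 k, p.2) :=
        funext fun p => by simp
      rw [this, map_comap P _ hk, a1 k le_rfl, ← h1 k]
      exact (q k).disintegrate _
    refine ⟨Q.map fun p => Function.update p.1 (k + 1) p.2,
      Measure.isProbabilityMeasure_map hu.aemeasurable, fun i hi => ?_, fun i hi => ?_⟩
    · rcases Nat.lt_or_ge k i with h | h
      · obtain rfl : i = k + 1 := by omega
        rw [← h2 k, ← last, Measure.map_map measurable_snd (by fun_prop)]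
        rfl
      · rw [key _ (measurable_pi_apply i) fun x y => Function.update_of_ne (by omega) _ _, a1 i h]
    · rcases Nat.lt_or_ge i k with h | h
      · rw [key (fun x => (x i, x (i + 1))) (by fun_prop) fun x y => by
          rw [Function.update_of_ne (by omega), Function.update_of_ne (by omega)], a2 i h]
      · obtain rfl : i = k := by omega
        exact last

end chain

/-- the dyadic points of the unit interval -/
noncomputable def dy (n j : ℕ) : I := projIcc 0 1 zero_le_one ((j : ℝ) / 2 ^ n)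

theorem dy_coe {n j : ℕ} (h : j ≤ 2 ^ n) : (dy n j : ℝ) = j / 2 ^ n := by
  have : (j : ℝ) / 2 ^ n ∈ Icc (0 : ℝ) 1 :=
    ⟨by positivity, (div_le_one (by positivity)).2 (by exact_mod_cast h)⟩
  rw [dy, projIcc_of_mem _ this]

theorem dy_two (n j : ℕ) : dy (n + 1) (2 * j) = dy n j := by
  unfold dy
  congr 1
  push_cast
  field_simp
  ring

theorem fl_le (n : ℕ) (t : I) : ⌊(t : ℝ) * 2 ^ n⌋₊ ≤ 2 ^ n := by
  refine Nat.floor_le_of_le ?_
  push_cast
  exact mul_le_of_le_one_left (by positivity) t.2.2

theorem fl_dy {n j : ℕ} (h : j ≤ 2 ^ n) : ⌊(dy n j : ℝ) * 2 ^ n⌋₊ = j := by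
  rw [dy_coe h, div_mul_cancel₀ _ (by positivity), Nat.floor_natCast]

theorem dy_ev (m j : ℕ) : ∀ n, m ≤ n → dy n ⌊(dy m j : ℝ) * 2 ^ n⌋₊ = dy m j := by
  have h : ∀ k, ∃ i ≤ 2 ^ (m + k), dy (m + k) i = dy m j := by
    intro k
    induction k with
    | zero =>
      rcases le_total j (2 ^ m) with h | h
      · exact ⟨j, h, rfl⟩
      · refine ⟨2 ^ m, le_rfl, ?_⟩
        unfold dy
        rw [projIcc_of_right_le, projIcc_of_right_le]
        · exact (one_le_div (by positivity)).2 (by exact_mod_cast h)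
        · push_cast
          rw [add_zero, div_self (by positivity)]
    | succ k ih =>
      obtain ⟨i, h1, h2⟩ := ih
      exact ⟨2 * i, by rw [← add_assoc, pow_succ]; omega, by rw [← add_assoc, dy_two, h2]⟩
  intro n hn
  obtain ⟨k, rfl⟩ := Nat.exists_eq_add_of_le hn
  obtain ⟨i, h1, h2⟩ := h k
  rw [← h2, fl_dy h1]

theorem dy_tendsto (t : I) : Tendsto (fun n => dy n ⌊(t : ℝ) * 2 ^ n⌋₊) atTop (𝓝 t) := by
  rw [tendsto_subtype_rng]
  simp only [fun n => dy_coe (fl_le n t)]
  have h := (tendsto_nat_floor_mul_div_atTop t.2.1).comp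
    (tendsto_pow_atTop_atTop_of_one_lt (r := (2 : ℝ)) one_lt_two)
  exact h

variable {X : Type*} [MetricSpace X]

/-- the discrete energy at level `n` -/
noncomputable def En (n : ℕ) (y : ℕ → X) : ℝ :=
  ∑ j ∈ Finset.range (2 ^ n), 2 ^ n * dist (y j) (y (j + 1)) ^ 2

theorem En_nonneg (n : ℕ) (y : ℕ → X) : 0 ≤ En n y :=
  Finset.sum_nonneg fun _ _ => by positivity

theorem sum_two (f : ℕ → ℝ) (k : ℕ) :
    ∑ i ∈ Finset.range (2 * k), f i = ∑ j ∈ Finset.range k, (f (2 * j) + f (2 * j + 1)) := by
  induction k with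
  | zero => simp
  | succ k ih =>
    rw [show 2 * (k + 1) = 2 * k + 1 + 1 by ring, Finset.sum_range_succ, Finset.sum_range_succ, ih,
      Finset.sum_range_succ]
    ring

theorem En_two (n : ℕ) (y : ℕ → X) : En n (fun j => y (2 * j)) ≤ En (n + 1) y := by
  unfold En
  rw [pow_succ' 2 n, sum_two]
  refine Finset.sum_le_sum fun j _ => ?_
  have h := dist_triangle (y (2 * j)) (y (2 * j + 1)) (y (2 * j + 1 + 1))
  have h0 := dist_nonneg (x := y (2 * j)) (y := y (2 * j + 1 + 1))
  have h3 : dist (y (2 * j)) (y (2 * j + 1 + 1)) ^ 2 ≤ 2 * dist (y (2 * j)) (y (2 * j + 1)) ^ 2 +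
      2 * dist (y (2 * j + 1)) (y (2 * j + 1 + 1)) ^ 2 := by
    nlinarith [sq_nonneg (dist (y (2 * j)) (y (2 * j + 1)) - dist (y (2 * j + 1)) (y (2 * j + 1 + 1))),
      pow_le_pow_left₀ h0 h 2]
  have h4 : (0 : ℝ) < 2 ^ n := by positivity
  show 2 ^ n * dist (y (2 * j)) (y (2 * j + 1 + 1)) ^ 2 ≤ _
  rw [pow_succ (2 : ℝ) n]
  nlinarith [mul_le_mul_of_nonneg_left h3 h4.le]

theorem En_congr (n : ℕ) {y z : ℕ → X} (h : ∀ j ≤ 2 ^ n, y j = z j) : En n y = En n z :=
  Finset.sum_congr rfl fun j hj => by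
    have := Finset.mem_range.1 hj
    rw [h j (by omega), h (j + 1) (by omega)]

theorem dist_sq_le (n : ℕ) (y : ℕ → X) {a b : ℕ} (hab : a ≤ b) (hb : b ≤ 2 ^ n) :
    dist (y a) (y b) ^ 2 ≤ En n y * (((b : ℝ) - a) / 2 ^ n) := by
  have h1 := dist_le_Ico_sum_dist y hab
  have h2 := sq_sum_le_card_mul_sum_sq (s := Finset.Ico a b) (f := fun j => dist (y j) (y (j + 1)))
  have h3 : ∑ j ∈ Finset.Ico a b, dist (y j) (y (j + 1)) ^ 2 ≤ En n y / 2 ^ n := by
    rw [En, ← Finset.mul_sum, mul_div_cancel_left₀ _ (by positivity)]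
    exact Finset.sum_le_sum_of_subset_of_nonneg (fun j hj => by
      rw [Finset.mem_Ico] at hj
      exact Finset.mem_range.2 (by omega)) fun _ _ _ => by positivity
  rw [Nat.card_Ico, Nat.cast_sub hab] at h2
  have h4 : (0 : ℝ) ≤ (b : ℝ) - a := sub_nonneg.2 (by exact_mod_cast hab)
  calc _ ≤ _ := pow_le_pow_left₀ dist_nonneg h1 2
    _ ≤ _ := h2
    _ ≤ ((b : ℝ) - a) * (En n y / 2 ^ n) := mul_le_mul_of_nonneg_left h3 h4
    _ = _ := by ring

end Vale.Agent.P242W72
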