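import Vale.Agent.P242W72.Chain

/-!
# The limit measure on the dyadic paths
-/

set_option linter.all false

open MeasureTheory ProbabilityTheory Set Filter Topology
open scoped ENNReal unitInterval

namespace Vale.Agent.P242W72

/-- the dyadic points -/
def DD : Set I := range fun p : ℕ × ℕ => dy p.1 p.2

theorem DD_count : Countable DD := (countable_range _).to_subtype

/-- the dyadic points, as elements of `DD` -/
noncomputable def dd (n j : ℕ) : DD := ⟨dy n j, (n, j), rfl⟩

theorem DD_ev (t : DD) : ∃ m, ∀ n, m ≤ n → dy n ⌊((t : I) : ℝ) * 2 ^ n⌋₊ = t := by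
  obtain ⟨t, ⟨m, j⟩, rfl⟩ := t
  exact ⟨m, dy_ev m j⟩

theorem DD_dense : DenseRange (Subtype.val : DD → I) := fun t => by
  rw [Subtype.range_val]
  exact mem_closure_of_tendsto (dy_tendsto t) (Eventually.of_forall fun n => ⟨(n, _), rfl⟩)

variable {X : Type*} [MetricSpace X]

theorem Ed_mono (z : DD → X) : Monotone fun n => En n fun j => z (dd n j) := by
  refine monotone_nat_of_le_succ fun n => ?_
  refine le_trans (le_of_eq ?_) (En_two n fun j => z (dd (n + 1) j))
  congr 1
  funext j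
  congr 1
  exact Subtype.ext (dy_two n j).symm

theorem Ed_cont (n : ℕ) : Continuous fun z : DD → X => En n fun j => z (dd n j) := by
  unfold En
  fun_prop

theorem holder {z : DD → X} {C : ℝ} (h : ∀ n, En n (fun j => z (dd n j)) ≤ C) (s t : DD) :
    dist (z s) (z t) ^ 2 ≤ C * dist s t := by
  wlog hst : s ≤ t generalizing s t
  · rw [dist_comm (z s), dist_comm s]
    exact this t s (le_of_not_ge hst)
  obtain ⟨m, hm⟩ := DD_ev s
  obtain ⟨m', hm'⟩ := DD_ev t
  set n := max m m'
  have h1 := hm n (le_max_left _ _)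
  have h2 := hm' n (le_max_right _ _)
  have hab : ⌊((s : I) : ℝ) * 2 ^ n⌋₊ ≤ ⌊((t : I) : ℝ) * 2 ^ n⌋₊ :=
    Nat.floor_mono (mul_le_mul_of_nonneg_right (show ((s : I) : ℝ) ≤ (t : I) from hst)
      (by positivity))
  have h3 := dist_sq_le n (fun j => z (dd n j)) hab (fl_le n t)
  have e1 : dd n ⌊((s : I) : ℝ) * 2 ^ n⌋₊ = s := Subtype.ext h1
  have e2 : dd n ⌊((t : I) : ℝ) * 2 ^ n⌋₊ = t := Subtype.ext h2
  simp only [e1, e2] at h3
  have c1 := dy_coe (fl_le n (s : I))
  have c2 := dy_coe (fl_le n (t : I))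
  rw [h1] at c1
  rw [h2] at c2
  have e3 : dist s t = ((⌊((t : I) : ℝ) * 2 ^ n⌋₊ : ℝ) - ⌊((s : I) : ℝ) * 2 ^ n⌋₊) / 2 ^ n := by
    rw [sub_div, ← c1, ← c2]
    show |((s : I) : ℝ) - (t : I)| = _
    rw [abs_sub_comm, abs_of_nonneg (sub_nonneg.2 (show ((s : I) : ℝ) ≤ (t : I) from hst))]
  rw [← e3] at h3
  exact h3.trans (mul_le_mul_of_nonneg_right (h n) dist_nonneg)

theorem extend [CompleteSpace X] {z : DD → X} {C : ℝ}
    (h : ∀ n, En n (fun j => z (dd n j)) ≤ C) : ∃ γ : C(I, X), ∀ t : DD, γ t = z t := by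
  have hC : 0 ≤ C := (En_nonneg _ _).trans (h 0)
  have hu : UniformContinuous z := by
    rw [Metric.uniformContinuous_iff]
    intro ε hε
    refine ⟨ε ^ 2 / (C + 1), by positivity, fun {s t} hst => ?_⟩
    have h1 := holder h s t
    rw [lt_div_iff₀ (by positivity)] at hst
    refine lt_of_pow_lt_pow_left₀ 2 hε.le ?_
    nlinarith [dist_nonneg (x := s) (y := t)]
  exact ⟨⟨_, (uniformContinuous_uniformly_extend isUniformEmbedding_subtype_val.isUniformInducing
    DD_dense hu).continuous⟩, fun t => uniformly_extend_of_ind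
      isUniformEmbedding_subtype_val.isUniformInducing DD_dense hu t⟩

variable [CompleteSpace X] [SecondCountableTopology X] [MeasurableSpace X] [BorelSpace X]

theorem tight_fin {S : Set (Measure X)} (hS : S.Finite) (h : ∀ μ ∈ S, IsFiniteMeasure μ) :
    IsTightMeasureSet S := by
  induction S, hS using Set.Finite.induction_on with
  | empty => exact (isTightMeasureSet_singleton (μ := 0)).subset (empty_subset _)
  | @insert a s _ _ ih =>
    have := h a (mem_insert _ _)
    rw [insert_eq]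
    exact isTightMeasureSet_singleton.union (ih fun μ hμ => h μ (mem_insert_of_mem _ hμ))

theorem tight_pi {ι : Type*} [Countable ι] (P : ℕ → Measure (ι → X))
    (h : ∀ i, IsTightMeasureSet (range fun n => (P n).map fun x => x i)) :
    IsTightMeasureSet (range P) := by
  rw [isTightMeasureSet_iff_exists_isCompact_measure_compl_le]
  intro ε hε
  obtain ⟨e, he, hs⟩ := ENNReal.exists_pos_sum_of_countable' hε.ne' ι
  choose K hK hK' using fun i =>
    isTightMeasureSet_iff_exists_isCompact_measure_compl_le.1 (h i) (e i) (he i)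
  refine ⟨Set.pi univ K, isCompact_univ_pi hK, ?_⟩
  rintro _ ⟨n, rfl⟩
  have : (Set.pi univ K)ᶜ ⊆ ⋃ i, (fun x : ι → X => x i) ⁻¹' (K i)ᶜ := fun x hx => by
    simp only [mem_compl_iff, Set.mem_pi, mem_univ, forall_true_left, not_forall] at hx
    simpa using hx
  refine (measure_mono this).trans ((measure_iUnion_le _).trans (le_trans ?_ hs.le))
  refine ENNReal.tsum_le_tsum fun i => ?_
  rw [← Measure.map_apply (measurable_pi_apply i) (hK i).isClosed.measurableSet.compl]
  exact hK' i _ ⟨n, rfl⟩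

/-- the approximations at level `n` -/
theorem level (ν : I → Measure X) [∀ t, IsProbabilityMeasure (ν t)] {A : ℝ} (hA : 0 ≤ A)
    (h : ∀ (s t : I) (δ : ℝ), 0 < δ → ∃ q : Measure (X × X), q.map Prod.fst = ν s ∧
      q.map Prod.snd = ν t ∧ ∫⁻ z, ENNReal.ofReal (dist z.1 z.2 ^ 2) ∂q ≤
        ENNReal.ofReal (A * ((s : ℝ) - t) ^ 2 + δ)) (n : ℕ) {δ : ℝ} (hδ : 0 < δ) :
    ∃ P : Measure (DD → X), IsProbabilityMeasure P ∧
      (∀ t : DD, P.map (fun x => x t) = ν (dy n ⌊((t : I) : ℝ) * 2 ^ n⌋₊)) ∧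
      ∫⁻ z, ENNReal.ofReal (En n fun j => z (dd n j)) ∂P ≤ ENNReal.ofReal (A + δ) := by
  choose q q1 q2 q3 using fun j => h (dy n j) (dy n (j + 1)) (δ / 2 ^ n / 2 ^ n) (by positivity)
  obtain ⟨P, hP, a1, a2⟩ := chain (fun j => ν (dy n j)) q q1 q2 (2 ^ n)
  have hm : Measurable fun (x : ℕ → X) (t : DD) => x ⌊((t : I) : ℝ) * 2 ^ n⌋₊ :=
    measurable_pi_lambda _ fun _ => measurable_pi_apply _
  have := DD_count
  refine ⟨P.map _, Measure.isProbabilityMeasure_map hm.aemeasurable, fun t => ?_, ?_⟩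
  · rw [Measure.map_map (measurable_pi_apply _) hm]
    exact a1 _ (fl_le n _)
  · rw [lintegral_map (Ed_cont n).measurable.ennreal_ofReal hm]
    have e : ∀ x : ℕ → X, ENNReal.ofReal (En n fun j => x ⌊((dd n j : I) : ℝ) * 2 ^ n⌋₊) =
        ∑ j ∈ Finset.range (2 ^ n), ENNReal.ofReal (2 ^ n) *
          ENNReal.ofReal (dist (x j) (x (j + 1)) ^ 2) := fun x => by
      rw [En_congr n (z := x) fun j hj => by rw [show (dd n j : I) = dy n j from rfl, fl_dy hj], En,
        ENNReal.ofReal_sum_of_nonneg fun _ _ => by positivity]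
      exact Finset.sum_congr rfl fun j _ => ENNReal.ofReal_mul (by positivity)
    simp only [e]
    rw [lintegral_finset_sum _ fun j _ => by fun_prop]
    have b : ∀ j ∈ Finset.range (2 ^ n), ∫⁻ x, ENNReal.ofReal (2 ^ n) *
        ENNReal.ofReal (dist (x j) (x (j + 1)) ^ 2) ∂P ≤ ENNReal.ofReal ((A + δ) / 2 ^ n) := by
      intro j hj
      have hj' := Finset.mem_range.1 hj
      rw [lintegral_const_mul _ (by fun_prop)]
      have h3 := q3 j
      rw [← a2 j hj', lintegral_map (by fun_prop) (by fun_prop)] at h3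
      refine (mul_le_mul_right h3 _).trans (le_of_eq ?_)
      rw [← ENNReal.ofReal_mul (by positivity), dy_coe hj'.le, dy_coe hj']
      congr 1
      push_cast
      field_simp
      ring
    refine (Finset.sum_le_sum b).trans (le_of_eq ?_)
    rw [Finset.sum_const, Finset.card_range, nsmul_eq_mul, ← ENNReal.ofReal_natCast,
      ← ENNReal.ofReal_mul (by positivity)]
    congr 1
    push_cast
    field_simp

/-- the limit -/
theorem limit (ν : I → Measure X) [∀ t, IsProbabilityMeasure (ν t)] {A : ℝ} (hA : 0 ≤ A)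
    (h : ∀ (s t : I) (δ : ℝ), 0 < δ → ∃ q : Measure (X × X), q.map Prod.fst = ν s ∧
      q.map Prod.snd = ν t ∧ ∫⁻ z, ENNReal.ofReal (dist z.1 z.2 ^ 2) ∂q ≤
        ENNReal.ofReal (A * ((s : ℝ) - t) ^ 2 + δ)) :
    ∃ P : Measure (DD → X), IsProbabilityMeasure P ∧ (∀ t : DD, P.map (fun x => x t) = ν t) ∧
      ∫⁻ z, ⨆ n, ENNReal.ofReal (En n fun j => z (dd n j)) ∂P ≤ ENNReal.ofReal A := by
  have := DD_count
  choose P hP a1 a2 using fun n : ℕ => level ν hA h n (δ := 1 / ((n : ℝ) + 1)) (by positivity)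
  let R : ℕ → ProbabilityMeasure (DD → X) := fun n => ⟨P n, hP n⟩
  have ht : IsTightMeasureSet (range P) := tight_pi P fun t => by
    obtain ⟨m, hm⟩ := DD_ev t
    refine tight_fin (((finite_Iio m).image (fun n => (P n).map fun x => x t)).insert (ν t)
      |>.subset ?_) ?_
    · rintro _ ⟨n, rfl⟩
      rcases lt_or_ge n m with h | h
      · exact Or.inr ⟨n, h, rfl⟩
      · exact Or.inl (by simp only [a1, hm n h])
    · rintro _ ⟨n, rfl⟩
      simp only [a1]
      infer_instance
  have hc : IsCompact (closure (range R)) := isCompact_closure_of_isTightMeasureSet (ht.subset (by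
    rintro _ ⟨_, ⟨n, rfl⟩, rfl⟩
    exact ⟨n, rfl⟩))
  obtain ⟨Q, -, φ, hφ, hQ⟩ := hc.tendsto_subseq (x := R) fun n => subset_closure ⟨n, rfl⟩
  refine ⟨Q, inferInstance, fun t => ?_, ?_⟩
  · have h1 := ProbabilityMeasure.tendsto_map_of_tendsto_of_continuous _ _ hQ
      (continuous_apply t)
    obtain ⟨m, hm⟩ := DD_ev t
    let ν' : ProbabilityMeasure X := ⟨ν t, inferInstance⟩
    have h2 : Tendsto (fun i => ((R ∘ φ) i).map (continuous_apply t).measurable.aemeasurable) atTop
        (𝓝 ν') := by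
      refine tendsto_const_nhds.congr' ?_
      filter_upwards [eventually_ge_atTop m] with i hi
      refine Subtype.ext ?_
      show ν t = (P (φ i)).map fun x => x t
      rw [a1, hm _ (hi.trans (hφ.id_le i))]
    have h3 := tendsto_nhds_unique h1 h2
    exact congrArg (fun ρ : ProbabilityMeasure X => (ρ : Measure X)) h3
  · rw [lintegral_iSup (fun n => (Ed_cont n).measurable.ennreal_ofReal)
      fun a b hab z => ENNReal.ofReal_le_ofReal (Ed_mono z hab)]
    refine iSup_le fun n => ?_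
    refine (lintegral_le_liminf_lintegral_of_forall_isOpen_measure_le_liminf_measure
      (μs := fun i => P (φ i)) (Ed_cont n) (fun z => En_nonneg _ _) fun G hG =>
        ProbabilityMeasure.le_liminf_measure_open_of_tendsto hQ hG).trans ?_
    have hl : Tendsto (fun i : ℕ => ENNReal.ofReal (A + 1 / ((φ i : ℝ) + 1))) atTop
        (𝓝 (ENNReal.ofReal A)) := by
      refine ENNReal.tendsto_ofReal ?_
      simpa using (tendsto_one_div_add_atTop_nhds_zero_nat (𝕜 := ℝ).comp
        hφ.tendsto_atTop).const_add A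
    rw [← hl.liminf_eq]
    refine liminf_le_liminf ?_
    filter_upwards [eventually_ge_atTop n] with i hi
    exact (lintegral_mono fun z => ENNReal.ofReal_le_ofReal
      (Ed_mono z (hi.trans (hφ.id_le i)))).trans (a2 _)

end Vale.Agent.P242W72
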