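import Vale.Agent.P242W39.Rows
import Mathlib.MeasureTheory.Integral.IntervalIntegral.AbsolutelyContinuousFun

/-!
# The row UGL
-/

set_option linter.all false

open MeasureTheory Set Filter Topology unitInterval
open scoped ENNReal NNReal

universe u

namespace Vale.Agent.P242W72

open Vale.Agent.P242W Vale.Agent.P242W39

/-- real curves: the fundamental theorem of calculus -/
theorem real_ac (c : C(I, ℝ)) (h : IsAC 1 c) {s t : I} (hst : s ≤ t) :
    ‖c t - c s‖ₑ ≤ ∫⁻ r in Icc s t, speed c r := by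
  obtain ⟨g, hg, h⟩ := h
  have hg : Integrable g := memLp_one_iff_integrable.1 hg
  let v : ℝ → ℝ := fun r => g (projIcc 0 1 zero_le_one r)
  have hv : ∀ t : I, v t = g t := fun t => by simp only [v, projIcc_val]
  have h1 : IntervalIntegrable v volume 0 1 := by
    rw [intervalIntegrable_iff_integrableOn_Icc_of_le zero_le_one]
    refine (measurePreserving_coe.integrable_comp_emb measurableEmbedding_coe).1 ?_
    rwa [show v ∘ Subtype.val = g from funext hv]
  have h2 : ∀ s t : I, s ≤ t → dist (c s) (c t) ≤ ∫ r in (s : ℝ)..t, v r := fun s t hst => by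
    rw [← setIntegral_Icc v hst]
    simpa only [hv] using h s t hst
  have hi : ∀ x : I, IntervalIntegrable v volume 0 x := fun x =>
    h1.mono_set (uIcc_subset_uIcc left_mem_uIcc (by rw [uIcc_of_le zero_le_one]; exact x.2))
  let φ : ℝ → ℝ := fun r => c (projIcc 0 1 zero_le_one r)
  have hφ : ∀ t : I, φ t = c t := fun t => by simp only [φ, projIcc_val]
  have h3 : ∀ s t : I, dist (φ s) (φ t) ≤
      dist (∫ r in (0 : ℝ)..s, v r) (∫ r in (0 : ℝ)..t, v r) := fun s t => by
    rw [hφ, hφ, Real.dist_eq (∫ r in (0 : ℝ)..s, v r)]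
    rcases le_total s t with h4 | h4
    · rw [abs_sub_comm, intervalIntegral.integral_interval_sub_left (hi t) (hi s)]
      exact (h2 s t h4).trans (le_abs_self _)
    · rw [dist_comm, intervalIntegral.integral_interval_sub_left (hi s) (hi t)]
      exact (h2 t s h4).trans (le_abs_self _)
  have ac : AbsolutelyContinuousOnInterval φ 0 1 := by
    have h4 := h1.absolutelyContinuousOnInterval_intervalIntegral left_mem_uIcc
    refine squeeze_zero' (Eventually.of_forall fun E => Finset.sum_nonneg fun _ _ => dist_nonneg)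
      ?_ h4
    refine eventually_inf_principal.2 (Eventually.of_forall fun E hE =>
      Finset.sum_le_sum fun i hi => ?_)
    have h5 := hE.1 i hi
    rw [uIcc_of_le zero_le_one] at h5
    exact h3 ⟨_, h5.1⟩ ⟨_, h5.2⟩
  have ac' : AbsolutelyContinuousOnInterval φ s t := ac.mono (by
    rw [uIcc_of_le zero_le_one, uIcc_of_le (show (s : ℝ) ≤ t from hst)]
    exact Icc_subset_Icc s.2.1 t.2.2)
  have h6 : ∀ᵐ x ∂volume.restrict (Icc (0 : ℝ) 1), DifferentiableAt ℝ φ x := by
    rw [ae_restrict_iff' measurableSet_Icc]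
    filter_upwards [ac.ae_differentiableAt] with x hx hx'
    exact hx (by rwa [uIcc_of_le zero_le_one])
  rw [← hφ, ← hφ, ← ac'.integral_deriv_eq_sub, ← setIntegral_Icc _ hst]
  refine (enorm_integral_le_lintegral_enorm _).trans (lintegral_mono_ae (ae_restrict_of_ae ?_))
  filter_upwards [measurePreserving_coe.quasiMeasurePreserving.ae h6] with r hr
  have h7 : Tendsto (fun s : I => (s : ℝ)) (𝓝[≠] r) (𝓝[≠] (r : ℝ)) :=
    tendsto_nhdsWithin_iff.2 ⟨(continuous_subtype_val.tendsto r).mono_left nhdsWithin_le_nhds,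
      eventually_nhdsWithin_of_forall fun s hs hs' => hs (Subtype.ext hs')⟩
  have h8 := ENNReal.tendsto_ofReal ((hasDerivAt_iff_tendsto_slope.1 hr.hasDerivAt).comp h7).abs
  have h9 : Tendsto (fun s => edist (c s) (c r) / edist s r) (𝓝[≠] r)
      (𝓝 (ENNReal.ofReal |deriv φ r|)) := by
    refine h8.congr' ?_
    filter_upwards [self_mem_nhdsWithin] with s hs
    rw [edist_dist, edist_dist, ← ENNReal.ofReal_div_of_pos (dist_pos.2 hs), Function.comp_apply,
      slope_def_field, abs_div, hφ, hφ]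
    rfl
  have : (𝓝[≠] r).NeBot := inferInstance
  rw [speed, h9.limsup_eq, Real.enorm_eq_ofReal_abs]

variable {X : Type u} [MetricSpace X]

theorem speed_comp {u : X → ℝ} {K : ℝ≥0} (hu : LipschitzWith K u) (γ : C(I, X)) (r : I)
    (hr : speed γ r ≠ ∞) : speed ((⟨u, hu.continuous⟩ : C(X, ℝ)).comp γ) r ≤
      P233.lipAt u (γ r) * speed γ r := by
  have h1 : P233.lipAt u (γ r) ≠ ∞ := by
    refine ne_top_of_le_ne_top (ENNReal.ofReal_ne_top (r := K)) ?_
    refine (P233.Met.lipAt_le_ofReal_iff K.2).2 fun c hc => Eventually.of_forall fun y => ?_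
    exact (hu.dist_le_mul y (γ r)).trans (mul_le_mul_of_nonneg_right hc.le dist_nonneg)
  have h2 := (P233.Met.lipAt_le_ofReal_iff (f := u) (x := γ r) ENNReal.toReal_nonneg).1
    (ENNReal.ofReal_toReal h1).ge
  have key : ∀ c, (P233.lipAt u (γ r)).toReal < c →
      speed ((⟨u, hu.continuous⟩ : C(X, ℝ)).comp γ) r ≤ ENNReal.ofReal c * speed γ r := by
    intro c hc
    have h3 := ((γ.continuous.tendsto r).eventually (h2 c hc)).filter_mono
      (nhdsWithin_le_nhds (s := {r}ᶜ))
    rw [speed, speed, ← ENNReal.limsup_const_mul_of_ne_top ENNReal.ofReal_ne_top]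
    refine limsup_le_limsup ?_
    filter_upwards [h3] with s hs
    rw [← mul_div_assoc]
    refine ENNReal.div_le_div_right ?_ _
    rw [edist_dist, edist_dist, ← ENNReal.ofReal_mul (ENNReal.toReal_nonneg.trans hc.le)]
    exact ENNReal.ofReal_le_ofReal hs
  have h4 : Tendsto (fun c => ENNReal.ofReal c * speed γ r)
      (𝓝[>] (P233.lipAt u (γ r)).toReal) (𝓝 (P233.lipAt u (γ r) * speed γ r)) := by
    refine ENNReal.Tendsto.mul_const ?_ (Or.inr hr)
    have := ENNReal.tendsto_ofReal (tendsto_id (x := 𝓝 (P233.lipAt u (γ r)).toReal))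
    rw [ENNReal.ofReal_toReal h1] at this
    exact this.mono_left nhdsWithin_le_nhds
  exact ge_of_tendsto h4 (eventually_nhdsWithin_of_forall key)

theorem speed_fin {γ : C(I, X)} (h : IsAC 1 γ) : ∀ᵐ r, speed γ r ≠ ∞ := by
  obtain ⟨g, hg, h⟩ := h
  filter_upwards [spd X γ g (memLp_one_iff_integrable.1 hg) h] with r hr
  exact ne_top_of_le_ne_top enorm_ne_top hr

variable (X) in
theorem ugl : UGL X := fun u K hu γ h s t hst => by
  have h1 : IsAC 1 ((⟨u, hu.continuous⟩ : C(X, ℝ)).comp γ) := by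
    obtain ⟨g, hg, h⟩ := h
    refine ⟨fun r => K * g r, hg.const_mul _, fun s t hst => ?_⟩
    rw [integral_const_mul]
    exact (hu.dist_le_mul _ _).trans (mul_le_mul_of_nonneg_left (h s t hst) K.2)
  refine (real_ac _ h1 hst).trans (lintegral_mono_ae (ae_restrict_of_ae ?_))
  filter_upwards [speed_fin h] with r hr using speed_comp hu γ r hr

end Vale.Agent.P242W72
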